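import Mathlib

/-!
# P271, block INST, part 2: local integrability and changes of coordinates
-/

namespace Vale.Agent.P271.Inst

open Filter Topology Metric Set MeasureTheory
open scoped ENNReal

/-- `g` has a finite integral over a neighbourhood of `a`. -/
def LInt {m : ℕ} (a : Fin m → ℂ) (g : (Fin m → ℂ) → ℝ≥0∞) : Prop :=
  ∃ U ∈ 𝓝 a, ∫⁻ x in U, g x < ⊤

variable {m : ℕ} {a b : Fin m → ℂ}

theorem LInt.mono {g g' : (Fin m → ℂ) → ℝ≥0∞} (h : LInt a g) (hg : ∀ᶠ x in 𝓝 a, g' x ≤ g x) :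
    LInt a g' := by
  obtain ⟨U, hU, hI⟩ := h
  obtain ⟨V, hV, hVo, ha⟩ := _root_.eventually_nhds_iff.1 hg
  obtain ⟨W, hWU, hWo, haW⟩ := _root_.mem_nhds_iff.1 hU
  refine ⟨W ∩ V, (hWo.inter hVo).mem_nhds ⟨haW, ha⟩, lt_of_le_of_lt ?_ hI⟩
  calc ∫⁻ x in W ∩ V, g' x ≤ ∫⁻ x in W ∩ V, g x :=
        setLIntegral_mono' (hWo.inter hVo).measurableSet fun x hx => hV x hx.2
    _ ≤ ∫⁻ x in U, g x := lintegral_mono_set (inter_subset_left.trans hWU)

theorem LInt.congr {g g' : (Fin m → ℂ) → ℝ≥0∞} (hg : ∀ᶠ x in 𝓝 a, g' x = g x) :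
    LInt a g' ↔ LInt a g :=
  ⟨fun h => h.mono (hg.mono fun _ hx => hx.ge), fun h => h.mono (hg.mono fun _ hx => hx.le)⟩

theorem LInt.const_mul {g : (Fin m → ℂ) → ℝ≥0∞} (h : LInt a g) {C : ℝ≥0∞} (hC : C ≠ ⊤) :
    LInt a fun x => C * g x := by
  obtain ⟨U, hU, hI⟩ := h
  refine ⟨U, hU, ?_⟩
  rw [lintegral_const_mul' _ _ hC]
  exact ENNReal.mul_lt_top hC.lt_top hI

theorem LInt.exists_ball {g : (Fin m → ℂ) → ℝ≥0∞} (h : LInt a g) {r : ℝ} (hr : 0 < r) :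
    ∃ e > 0, e ≤ r ∧ ∫⁻ x in ball a e, g x < ⊤ := by
  obtain ⟨U, hU, hI⟩ := h
  obtain ⟨e, he, heU⟩ := Metric.mem_nhds_iff.1 hU
  refine ⟨min e r, lt_min he hr, min_le_right _ _, lt_of_le_of_lt (lintegral_mono_set ?_) hI⟩
  exact (ball_subset_ball (min_le_left _ _)).trans heU

/-- A local integral is finite at all points near `a`. -/
theorem LInt.eventually {g : (Fin m → ℂ) → ℝ≥0∞} (h : LInt a g) : ∀ᶠ x in 𝓝 a, LInt x g := by
  obtain ⟨U, hU, hI⟩ := h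
  exact (eventually_mem_nhds_iff.2 hU).mono fun x hx => ⟨U, hx, hI⟩

/-- The real determinant of the derivative of an analytic map is bounded. -/
theorem det_bdd {θ : (Fin m → ℂ) → (Fin m → ℂ)} (hθ : AnalyticAt ℂ θ a) :
    ∃ C : ℝ, ∀ᶠ x in 𝓝 a, |((fderiv ℂ θ x).restrictScalars ℝ).det| ≤ C := by
  have h1 : ContinuousAt (fderiv ℂ θ) a := hθ.fderiv.continuousAt
  have h2 : Continuous fun L : (Fin m → ℂ) →L[ℂ] (Fin m → ℂ) => (L.restrictScalars ℝ).det := by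
    refine ContinuousLinearMap.continuous_det.comp ?_
    exact (ContinuousLinearMap.restrictScalarsL ℂ (Fin m → ℂ) (Fin m → ℂ) ℝ ℝ).continuous
  have h3 : ContinuousAt (fun x => |((fderiv ℂ θ x).restrictScalars ℝ).det|) a :=
    (h2.continuousAt.comp h1).abs
  refine ⟨|((fderiv ℂ θ a).restrictScalars ℝ).det| + 1, ?_⟩
  exact (h3.tendsto.eventually_lt_const (lt_add_one _)).mono fun x hx => hx.le

/-- Change of coordinates: `θ` analytic near `a`, with a local inverse `θ'` continuous at `b`. -/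
theorem LInt.of_comp {θ θ' : (Fin m → ℂ) → (Fin m → ℂ)} (hθ : AnalyticAt ℂ θ a)
    (hθ' : ContinuousAt θ' b) (hb : θ' b = a) (hi : ∀ᶠ x in 𝓝 a, θ' (θ x) = x)
    (hi' : ∀ᶠ y in 𝓝 b, θ (θ' y) = y) {g : (Fin m → ℂ) → ℝ≥0∞}
    (h : LInt a fun x => g (θ x)) : LInt b g := by
  obtain ⟨U, hU, hI⟩ := h
  obtain ⟨C, hC⟩ := det_bdd hθ
  have hd : ∀ᶠ x in 𝓝 a, AnalyticAt ℂ θ x := hθ.eventually_analyticAt
  obtain ⟨A, hA, hAo, haA⟩ := _root_.eventually_nhds_iff.1 ((hC.and hd).and (hi.and hU))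
  have hAU : A ⊆ U := fun x hx => (hA x hx).2.2
  have hmem : ∀ᶠ y in 𝓝 b, θ' y ∈ A := hθ'.eventually (by rw [hb]; exact hAo.mem_nhds haA)
  refine ⟨{y | θ' y ∈ A ∧ θ (θ' y) = y}, hmem.and hi', ?_⟩
  have hsub : {y | θ' y ∈ A ∧ θ (θ' y) = y} ⊆ θ '' A := fun y hy => ⟨θ' y, hy.1, hy.2⟩
  have hinj : InjOn θ A := by
    intro x hx y hy hxy
    rw [← (hA x hx).2.1, ← (hA y hy).2.1, hxy]
  have hder : ∀ x ∈ A, HasFDerivWithinAt θ ((fderiv ℂ θ x).restrictScalars ℝ) A x := by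
    intro x hx
    exact ((hA x hx).1.2.differentiableAt.hasFDerivAt.restrictScalars ℝ).hasFDerivWithinAt
  calc ∫⁻ y in {y | θ' y ∈ A ∧ θ (θ' y) = y}, g y ≤ ∫⁻ y in θ '' A, g y :=
        lintegral_mono_set hsub
    _ = ∫⁻ x in A, ENNReal.ofReal |((fderiv ℂ θ x).restrictScalars ℝ).det| * g (θ x) :=
        lintegral_image_eq_lintegral_abs_det_fderiv_mul volume hAo.measurableSet hder hinj g
    _ ≤ ∫⁻ x in A, ENNReal.ofReal C * g (θ x) := by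
        refine setLIntegral_mono' hAo.measurableSet fun x hx => ?_
        exact mul_le_mul' (ENNReal.ofReal_le_ofReal (hA x hx).1.1) le_rfl
    _ = ENNReal.ofReal C * ∫⁻ x in A, g (θ x) := lintegral_const_mul' _ _ ENNReal.ofReal_ne_top
    _ < ⊤ := ENNReal.mul_lt_top ENNReal.ofReal_lt_top
        (lt_of_le_of_lt (lintegral_mono_set hAU) hI)

end Vale.Agent.P271.Inst
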