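import Mathlib

/-!
# P271, block INST, part 1: the topology on the set of points of an algebra

`ptTop` : topology of pointwise convergence on `R →ₐ[ℂ] ℂ`.
-/

namespace Vale.Agent.P271.Inst

open Filter Topology Metric Set

variable {R : Type*} [CommRing R] [Algebra ℂ R]

/-- The topology of pointwise convergence on the set of complex points. -/
noncomputable scoped instance ptTop : TopologicalSpace (R →ₐ[ℂ] ℂ) :=
  TopologicalSpace.induced (fun φ f => φ f) Pi.topologicalSpace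

theorem continuous_ev (f : R) : Continuous fun φ : R →ₐ[ℂ] ℂ => φ f :=
  (continuous_apply f).comp continuous_induced_dom

theorem tendsto_iff {α : Type*} {l : Filter α} {u : α → (R →ₐ[ℂ] ℂ)} {φ : R →ₐ[ℂ] ℂ} :
    Tendsto u l (𝓝 φ) ↔ ∀ f, Tendsto (fun a => u a f) l (𝓝 (φ f)) := by
  rw [nhds_induced, tendsto_comap_iff, tendsto_pi_nhds]
  rfl

theorem continuousAt_iff {α : Type*} [TopologicalSpace α] {u : α → (R →ₐ[ℂ] ℂ)} {a : α} :
    ContinuousAt u a ↔ ∀ f, ContinuousAt (fun a => u a f) a := tendsto_iff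

theorem nhds_finset (φ : R →ₐ[ℂ] ℂ) (S : Finset R) {δ : ℝ} (hδ : 0 < δ) :
    ∀ᶠ φ' in 𝓝 φ, ∀ s ∈ S, ‖φ' s - φ s‖ < δ := by
  rw [S.eventually_all]
  intro s _
  have h := (continuous_ev s).continuousAt (x := φ)
  have h2 := Metric.tendsto_nhds.1 h δ hδ
  exact h2.mono fun x hx => by rwa [dist_eq_norm] at hx

/-- The neighbourhoods of a point. -/
theorem mem_nhds_iff_finset {φ : R →ₐ[ℂ] ℂ} {A : Set (R →ₐ[ℂ] ℂ)} :
    A ∈ 𝓝 φ ↔ ∃ (S : Finset R) (δ : ℝ), 0 < δ ∧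
      ∀ φ' : R →ₐ[ℂ] ℂ, (∀ s ∈ S, ‖φ' s - φ s‖ < δ) → φ' ∈ A := by
  constructor
  · intro h
    rw [nhds_induced, Filter.mem_comap] at h
    obtain ⟨t, ht, hA⟩ := h
    rw [nhds_pi, Filter.mem_pi] at ht
    obtain ⟨I, hI, V, hV, hVt⟩ := ht
    have h1 : ∀ s : R, ∃ δ > 0, ball (φ s) δ ⊆ V s := fun s => Metric.mem_nhds_iff.1 (hV s)
    choose δ hδ hδV using h1
    obtain ⟨e, he, hmin⟩ : ∃ e > 0, ∀ s ∈ hI.toFinset, e ≤ δ s := by
      rcases hI.toFinset.eq_empty_or_nonempty with h0 | h0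
      · exact ⟨1, one_pos, by simp [h0]⟩
      · obtain ⟨s, _, hs⟩ := hI.toFinset.exists_min_image δ h0
        exact ⟨δ s, hδ s, hs⟩
    refine ⟨hI.toFinset, e, he, fun φ' hφ' => hA (hVt ?_)⟩
    intro s hs
    apply hδV
    rw [mem_ball, dist_eq_norm]
    have hs' : s ∈ hI.toFinset := by simpa using hs
    exact (hφ' s hs').trans_le (hmin s hs')
  · rintro ⟨S, δ, hδ, h⟩
    exact (nhds_finset φ S hδ).mono h

theorem eventually_ne {φ : R →ₐ[ℂ] ℂ} {f : R} (h : φ f ≠ 0) : ∀ᶠ φ' in 𝓝 φ, φ' f ≠ 0 :=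
  ((continuous_ev f).continuousAt (x := φ)).eventually_ne h

end Vale.Agent.P271.Inst
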