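import Vale.Agent.P271.H741.Chart
import Vale.Agent.P271.Inst.Pt
import Vale.Agent.P271.Inst.Cov

/-!
# P271, block INST, part 3: charts at the points of an affine algebra, independence of the chart
-/

namespace Vale.Agent.P271.H741.Chart

open Filter Topology Metric Set MeasureTheory Vale.Agent.P271.Inst
open scoped ENNReal Vale.Agent.P271.Inst

variable {R : Type} [CommRing R] [Algebra ℂ R] {φ : R →ₐ[ℂ] ℂ} {m : ℕ} (c : Chart φ m)

/-- the coordinates of a point -/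
def X (χ : R →ₐ[ℂ] ℂ) : Fin m → ℂ := fun j => χ (c.t j)

theorem continuous_X : Continuous c.X := continuous_pi fun j => continuous_ev (c.t j)

theorem mem0 : (0 : Fin m → ℂ) ∈ ball (0 : Fin m → ℂ) c.ρ := mem_ball_self c.ρ_pos

theorem X_ψ {x : Fin m → ℂ} (hx : x ∈ ball (0 : Fin m → ℂ) c.ρ) : c.X (c.ψ x) = x :=
  funext fun j => c.coord x hx j

theorem X_self : c.X φ = 0 := by
  have h := c.X_ψ c.mem0
  rwa [c.zero] at h

theorem continuousAt_ψ {x : Fin m → ℂ} (hx : x ∈ ball (0 : Fin m → ℂ) c.ρ) :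
    ContinuousAt c.ψ x :=
  continuousAt_iff.2 fun f => (c.holo f x hx).continuousAt

theorem continuousOn_ψ : ContinuousOn c.ψ (ball 0 c.ρ) := fun _ hx =>
  (c.continuousAt_ψ hx).continuousWithinAt

theorem tendsto_ψ : Tendsto c.ψ (𝓝 0) (𝓝 φ) := by
  have h := (c.continuousAt_ψ c.mem0).tendsto
  rwa [c.zero] at h

theorem tendsto_X : Tendsto c.X (𝓝 φ) (𝓝 0) := by
  have h := c.continuous_X.tendsto φ
  rwa [c.X_self] at h

/-- All points near `φ` are in the chart. -/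
theorem near : ∀ᶠ χ in 𝓝 φ, c.X χ ∈ ball (0 : Fin m → ℂ) c.ρ ∧ c.ψ (c.X χ) = χ := by
  obtain ⟨F, ε, hε, h⟩ := c.nhd
  filter_upwards [nhds_finset φ F hε] with χ hχ
  obtain ⟨x, hx, rfl⟩ := h χ hχ
  rw [c.X_ψ hx]
  exact ⟨hx, rfl⟩

/-- The chart is a homeomorphism near `0`. -/
theorem map_nhds : map c.ψ (𝓝 0) = 𝓝 φ := by
  refine le_antisymm c.tendsto_ψ ?_
  intro A hA
  rw [Filter.mem_map] at hA
  filter_upwards [c.near, c.tendsto_X.eventually hA] with χ h1 h2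
  rw [← h1.2]
  exact h2

/-- The restriction of a chart to a smaller ball. -/
def shrink {ρ' : ℝ} (h0 : 0 < ρ') (h1 : ρ' ≤ c.ρ) : Chart φ m where
  ψ := c.ψ
  ρ := ρ'
  ρ_pos := h0
  zero := c.zero
  holo := fun a => (c.holo a).mono (ball_subset_ball h1)
  t := c.t
  coord := fun x hx => c.coord x (ball_subset_ball h1 hx)
  nhd := by
    have h := c.near.and (c.tendsto_X.eventually (ball_mem_nhds 0 h0))
    obtain ⟨F, ε, hε, h2⟩ := mem_nhds_iff_finset.1 h
    exact ⟨F, ε, hε, fun χ hχ => ⟨c.X χ, (h2 χ hχ).2, (h2 χ hχ).1.2⟩⟩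

/-- The points near `φ` have a chart, the translate of `c`. -/
theorem exists_shift : ∀ᶠ x in 𝓝 (0 : Fin m → ℂ), ∃ c' : Chart (c.ψ x) m,
    (∀ y, c'.ψ y = c.ψ (x + y)) ∧ (∀ j, c'.t j = c.t j - algebraMap ℂ R (x j)) ∧
      ∀ y ∈ ball (0 : Fin m → ℂ) c'.ρ, x + y ∈ ball (0 : Fin m → ℂ) c.ρ := by
  have h1 : ∀ᶠ x in 𝓝 (0 : Fin m → ℂ), ∀ᶠ χ in 𝓝 (c.ψ x),
      c.X χ ∈ ball (0 : Fin m → ℂ) c.ρ ∧ c.ψ (c.X χ) = χ :=
    c.tendsto_ψ.eventually (eventually_eventually_nhds.2 c.near)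
  filter_upwards [h1, ball_mem_nhds (0 : Fin m → ℂ) c.ρ_pos] with x hx hxB
  have hx0 : ‖x‖ < c.ρ := by simpa using hxB
  have hr : 0 < c.ρ - ‖x‖ := by linarith
  have hadd : ∀ y ∈ ball (0 : Fin m → ℂ) (c.ρ - ‖x‖), x + y ∈ ball (0 : Fin m → ℂ) c.ρ := by
    intro y hy
    have hy0 : ‖y‖ < c.ρ - ‖x‖ := by simpa using hy
    have := norm_add_le x y
    rw [mem_ball_zero_iff]
    linarith
  have hXt : Tendsto (fun χ => c.X χ - x) (𝓝 (c.ψ x)) (𝓝 0) := by
    have h2 := (c.continuous_X.tendsto (c.ψ x)).sub_const x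
    rwa [c.X_ψ hxB, sub_self] at h2
  obtain ⟨F, ε, hε, h3⟩ := mem_nhds_iff_finset.1 (hx.and (hXt.eventually (ball_mem_nhds 0 hr)))
  refine ⟨{ ψ := fun y => c.ψ (x + y)
            ρ := c.ρ - ‖x‖
            ρ_pos := hr
            zero := by rw [add_zero]
            holo := fun a y hy => ?_
            t := fun j => c.t j - algebraMap ℂ R (x j)
            coord := fun y hy j => ?_
            nhd := ⟨F, ε, hε, fun χ hχ => ⟨c.X χ - x, (h3 χ hχ).2, ?_⟩⟩ }, fun _ => rfl,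
    fun _ => rfl, hadd⟩
  · have h4 : AnalyticAt ℂ (fun z => c.ψ z a) (x + y) := c.holo a _ (hadd y hy)
    have h5 : AnalyticAt ℂ (fun y : Fin m → ℂ => x + y) y := analyticAt_const.add analyticAt_id
    exact AnalyticAt.comp (g := fun z => c.ψ z a) (f := fun y => x + y) h4 h5
  · rw [map_sub, AlgHom.commutes, c.coord _ (hadd y hy)]
    simp
  · rw [add_sub_cancel]
    exact (h3 χ hχ).1.2

variable {m' : ℕ} (c' : Chart φ m)

/-- the transition map -/
def trans (x : Fin m → ℂ) : Fin m → ℂ := c'.X (c.ψ x)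

theorem trans_zero : trans c c' 0 = 0 := by
  unfold trans
  rw [c.zero, c'.X_self]

theorem analyticAt_trans {x : Fin m → ℂ} (hx : x ∈ ball (0 : Fin m → ℂ) c.ρ) :
    AnalyticAt ℂ (trans c c') x := by
  unfold trans X
  exact AnalyticAt.pi fun j => c.holo (c'.t j) x hx

theorem ψ_trans : ∀ᶠ x in 𝓝 (0 : Fin m → ℂ), c'.ψ (trans c c' x) = c.ψ x := by
  filter_upwards [c.tendsto_ψ.eventually c'.near] with x hx
  exact hx.2

theorem trans_trans : ∀ᶠ x in 𝓝 (0 : Fin m → ℂ), trans c' c (trans c c' x) = x := by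
  filter_upwards [ψ_trans c c', ball_mem_nhds (0 : Fin m → ℂ) c.ρ_pos] with x hx hxB
  unfold trans at hx ⊢
  rw [hx, c.X_ψ hxB]

theorem LInt_of {g : (R →ₐ[ℂ] ℂ) → ℝ≥0∞} (h : LInt (0 : Fin m → ℂ) fun x => g (c.ψ x)) :
    LInt (0 : Fin m → ℂ) fun x => g (c'.ψ x) := by
  have h1 : LInt (0 : Fin m → ℂ) fun x => g (c'.ψ (trans c c' x)) := by
    refine (LInt.congr ?_).2 h
    filter_upwards [ψ_trans c c'] with x hx
    rw [hx]
  have h2 : ContinuousAt (trans c' c) 0 := (analyticAt_trans c' c c'.mem0).continuousAt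
  exact LInt.of_comp (g := fun y => g (c'.ψ y)) (analyticAt_trans c c' c.mem0) h2
    (trans_zero c' c) (trans_trans c c') (trans_trans c' c) h1

/-- Local integrability does not depend on the chart. -/
theorem intAt_iff {g : (R →ₐ[ℂ] ℂ) → ℝ≥0∞} :
    IntAt m φ g ↔ LInt (0 : Fin m → ℂ) fun x => g (c.ψ x) := by
  constructor
  · rintro ⟨c', ε, hε, -, h⟩
    exact LInt_of c' c ⟨ball 0 ε, ball_mem_nhds 0 hε, h⟩
  · intro h
    obtain ⟨e, he, h1, h2⟩ := h.exists_ball c.ρ_pos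
    exact ⟨c, e, he, h1, h2⟩

/-- Local integrability at the points near `φ`, in the chart at `φ`. -/
theorem eventually_intAt_iff : ∀ᶠ x in 𝓝 (0 : Fin m → ℂ), ∀ g : (R →ₐ[ℂ] ℂ) → ℝ≥0∞,
    IntAt m (c.ψ x) g ↔ LInt x fun y => g (c.ψ y) := by
  filter_upwards [c.exists_shift] with x hx g
  obtain ⟨c', hc', -, -⟩ := hx
  rw [c'.intAt_iff]
  simp only [hc']
  constructor
  · rintro ⟨U, hU, hI⟩
    refine ⟨(fun y => y - x) ⁻¹' U, ?_, ?_⟩
    · refine ContinuousAt.preimage_mem_nhds (by fun_prop) ?_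
      rwa [sub_self]
    · have h1 : MeasurePreserving (fun y : Fin m → ℂ => y - x) volume volume :=
        measurePreserving_sub_right volume x
      have h2 : MeasurableEmbedding (fun y : Fin m → ℂ => y - x) := measurableEmbedding_subRight x
      rw [← h1.setLIntegral_comp_preimage_emb h2] at hI
      simpa using hI
  · rintro ⟨U, hU, hI⟩
    refine ⟨(fun y => x + y) ⁻¹' U, ?_, ?_⟩
    · refine ContinuousAt.preimage_mem_nhds (by fun_prop) ?_
      rwa [add_zero]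
    · have h1 : MeasurePreserving (fun y : Fin m → ℂ => x + y) volume volume :=
        measurePreserving_add_left volume x
      have h2 : MeasurableEmbedding (fun y : Fin m → ℂ => x + y) := measurableEmbedding_addLeft x
      rwa [h1.setLIntegral_comp_preimage_emb h2 (fun y => g (c.ψ y)) U]

/-- Local integrability at the points near `φ`. -/
theorem eventually_intAt (c : Chart φ m) {g : (R →ₐ[ℂ] ℂ) → ℝ≥0∞} (h : IntAt m φ g) :
    ∀ᶠ χ in 𝓝 φ, IntAt m χ g := by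
  rw [← c.map_nhds, Filter.eventually_map]
  filter_upwards [c.eventually_intAt_iff, ((c.intAt_iff).1 h).eventually] with x h1 h2
  exact (h1 g).2 h2

/-- Comparison. -/
theorem intAt_mono (c : Chart φ m) {g g' : (R →ₐ[ℂ] ℂ) → ℝ≥0∞} (h : IntAt m φ g)
    (hg : ∀ᶠ χ in 𝓝 φ, g' χ ≤ g χ) : IntAt m φ g' := by
  rw [c.intAt_iff] at h ⊢
  exact h.mono (c.tendsto_ψ.eventually hg)

end Vale.Agent.P271.H741.Chart
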