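import Mathlib

/-!
# P271, block INST: the zero set of an analytic function is a null set
-/

namespace Vale.Agent.P271.Inst

open Filter Topology Metric Set MeasureTheory
open scoped ENNReal

section

variable {E : Type*} [NormedAddCommGroup E] [NormedSpace ℝ E] [FiniteDimensional ℝ E]
  [MeasurableSpace E] [BorelSpace E] (μ : Measure E) [μ.IsAddHaarMeasure]

theorem measure_zero_of_ne_zero {f : E → ℂ} {r : ℝ} (hf : AnalyticOnNhd ℝ f (ball 0 r))
    (hp : f 0 ≠ 0) : μ (ball 0 r ∩ {x | f x = 0}) = 0 := by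
  rcases le_or_gt r 0 with hr | hr
  · rw [ball_eq_empty.2 hr]
    simp
  have hcont : ContinuousOn f (ball 0 r) := hf.continuousOn
  set Z : Set E := ball 0 r ∩ {x | f x = 0} with hZ
  have hZm : MeasurableSet Z := by
    have h1 : Z = ball 0 r \ (ball 0 r ∩ f ⁻¹' {0}ᶜ) := by
      ext x
      simp only [hZ, mem_inter_iff, mem_ofPred_eq, Set.mem_sdiff, mem_preimage, mem_compl_iff,
        mem_singleton_iff, not_and, not_not]
      tauto
    rw [h1]
    exact isOpen_ball.measurableSet.diff
      (hcont.isOpen_inter_preimage isOpen_ball isOpen_compl_singleton).measurableSet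
  let W : Set (E × ℝ) := (fun q => q.2 • q.1) ⁻¹' Z
  have hWm : MeasurableSet W := (by fun_prop : Measurable fun q : E × ℝ => q.2 • q.1) hZm
  have hsec : ∀ x : E, volume (Prod.mk x ⁻¹' W) = 0 := by
    intro x
    set I : Set ℝ := {t | t • x ∈ ball (0 : E) r} with hI
    have hIo : IsOpen I := isOpen_ball.preimage (by fun_prop : Continuous fun t : ℝ => t • x)
    have hIc : Convex ℝ I := by
      have : I = (LinearMap.toSpanSingleton ℝ E x) ⁻¹' ball 0 r := rfl
      rw [this]
      exact (convex_ball 0 r).linear_preimage _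
    have h0 : (0 : ℝ) ∈ I := by simp [hI, hr]
    have han : AnalyticOnNhd ℝ (fun t : ℝ => f (t • x)) I := by
      intro t ht
      have h1 : AnalyticAt ℝ (fun t : ℝ => t • x) t := analyticAt_id.smul analyticAt_const
      exact AnalyticAt.comp (g := f) (f := fun t : ℝ => t • x) (hf _ ht) h1
    rcases han.eqOn_zero_or_eventually_ne_zero_of_preconnected hIc.isPreconnected with h | h
    · exfalso
      apply hp
      have := h h0
      simpa using this
    · have h2 := ae_restrict_le_codiscreteWithin (μ := (volume : Measure ℝ)) hIo.measurableSet h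
      rw [mem_ae_iff, Measure.restrict_apply' hIo.measurableSet] at h2
      refine measure_mono_null ?_ h2
      intro t ht
      have ht' : t • x ∈ ball (0 : E) r ∧ f (t • x) = 0 := ht
      exact ⟨fun hne => hne ht'.2, ht'.1⟩
  have h1 : (μ.prod volume) W = 0 := by
    rw [Measure.measure_prod_null hWm]
    exact Eventually.of_forall hsec
  have h2 : ((volume : Measure ℝ).prod μ) (Prod.swap ⁻¹' W) = 0 := by
    rw [← Measure.prod_swap, Measure.map_apply measurable_swap hWm] at h1
    exact h1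
  have h3 := Measure.measure_ae_null_of_prod_null h2
  have h4 : ∀ᵐ t : ℝ, t ≠ 0 := by
    rw [ae_iff]
    simp
  obtain ⟨t, ht, ht0⟩ := (h3.and h4).exists
  have h5 : μ ((fun x => t • x) ⁻¹' Z) = 0 := ht
  rw [Measure.addHaar_preimage_smul μ ht0] at h5
  rcases mul_eq_zero.1 h5 with h6 | h6
  · exfalso
    rw [ENNReal.ofReal_eq_zero] at h6
    have : 0 < |(t ^ Module.finrank ℝ E)⁻¹| := abs_pos.2 (inv_ne_zero (pow_ne_zero _ ht0))
    linarith
  · exact h6

theorem measure_zero_of_ne {f : E → ℂ} {p : E} {r : ℝ} (hf : AnalyticOnNhd ℝ f (ball p r))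
    (hp : f p ≠ 0) : μ (ball p r ∩ {x | f x = 0}) = 0 := by
  have h1 : AnalyticOnNhd ℝ (fun x => f (p + x)) (ball 0 r) := by
    intro x hx
    have h2 : AnalyticAt ℝ (fun x : E => p + x) x := analyticAt_const.add analyticAt_id
    refine AnalyticAt.comp (g := f) (f := fun x : E => p + x) (hf _ ?_) h2
    rw [mem_ball_iff_norm] at hx ⊢
    simpa using hx
  have h3 := measure_zero_of_ne_zero μ h1 (by simpa using hp)
  have h4 : (fun x => p + x) ⁻¹' (ball p r ∩ {x | f x = 0}) =
      ball 0 r ∩ {x | f (p + x) = 0} := by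
    ext x
    simp
  rw [← measure_preimage_add μ p, h4]
  exact h3

end

/-- The zero set of an analytic function which is not identically zero near `a` is a null set near
`a`. -/
theorem exists_null {m : ℕ} {a : Fin m → ℂ} {f : (Fin m → ℂ) → ℂ} (hf : AnalyticAt ℂ f a)
    (hne : ¬ ∀ᶠ x in 𝓝 a, f x = 0) : ∃ e > 0, volume (ball a e ∩ {x | f x = 0}) = 0 := by
  obtain ⟨r, hr, hr2⟩ := Metric.eventually_nhds_iff.1 hf.eventually_analyticAt
  have h1 : ∃ p ∈ ball a (r / 4), f p ≠ 0 := by
    by_contra h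
    push Not at h
    exact hne (Filter.mem_of_superset (ball_mem_nhds a (by positivity)) h)
  obtain ⟨p, hp, hpf⟩ := h1
  have h2 : AnalyticOnNhd ℝ f (ball p (r / 2)) := by
    intro x hx
    refine (hr2 ?_ : AnalyticAt ℂ f x).restrictScalars
    calc dist x a ≤ dist x p + dist p a := dist_triangle _ _ _
      _ < r / 2 + r / 4 := add_lt_add hx hp
      _ < r := by linarith
  refine ⟨r / 4, by positivity, measure_mono_null ?_ (measure_zero_of_ne volume h2 hpf)⟩
  intro x hx
  refine ⟨?_, hx.2⟩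
  have h3 : dist x a < r / 4 := hx.1
  have h4 : dist p a < r / 4 := hp
  rw [mem_ball]
  calc dist x p ≤ dist x a + dist a p := dist_triangle _ _ _
    _ < r / 4 + r / 4 := by rw [dist_comm a p]; exact add_lt_add h3 h4
    _ = r / 2 := by ring

theorem eventually_ae_ne {m : ℕ} {a : Fin m → ℂ} {f : (Fin m → ℂ) → ℂ} (hf : AnalyticAt ℂ f a)
    (hne : ¬ ∀ᶠ x in 𝓝 a, f x = 0) : ∀ᶠ x in 𝓝 a ⊓ ae (volume : Measure (Fin m → ℂ)), f x ≠ 0 := by
  obtain ⟨e, he, h⟩ := exists_null hf hne
  refine Filter.mem_inf_of_inter (ball_mem_nhds a he)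
    (t := (ball a e ∩ {x | f x = 0})ᶜ) (compl_mem_ae_iff.2 h) ?_
  rintro x ⟨hx1, hx2⟩ hx
  exact hx2 ⟨hx1, hx⟩

end Vale.Agent.P271.Inst
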