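import Vale.Agent.P271.Zorn.LocInt
import Vale.Agent.P271.Inst.ChartL
import Vale.Agent.P271.Inst.Null

/-!
# P271, block INST, part 4: the exponent set at a point and its elementary properties
-/

namespace Vale.Agent.P271.Inst

open Filter Topology Metric Set MeasureTheory Vale.Agent.P271.H741 Vale.Agent.P271.Zorn Finsupp
open scoped ENNReal

/-! ### Families of analytic functions near a point of `ℂ^m` -/

theorem bas {m : ℕ} (a : Fin m → ℂ) : Bas volume (𝓝 a) := by
  intro U hU
  obtain ⟨V, hVU, hVo, haV⟩ := _root_.mem_nhds_iff.1 hU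
  exact ⟨V, hVo.mem_nhds haV, hVU, hVo.measurableSet.nullMeasurableSet⟩

/-- A multiplicative family of analytic functions, none of which is identically zero near `a`. -/
theorem isEv {H : Type*} [CommMonoid H] {m : ℕ} {a : Fin m → ℂ} {ev : H → (Fin m → ℂ) → ℂ}
    (han : ∀ f, AnalyticAt ℂ (ev f) a) (hmul : ∀ f g, ∀ᶠ x in 𝓝 a, ev (f * g) x = ev f x * ev g x)
    (hne : ∀ f, ¬ ∀ᶠ x in 𝓝 a, ev f x = 0) : IsEv volume (𝓝 a) ev where
  bas := bas a
  meas := by
    intro f
    obtain ⟨U, hU, hUo, haU⟩ := _root_.eventually_nhds_iff.1 (han f).eventually_analyticAt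
    refine ⟨U, hUo.mem_nhds haU, ContinuousOn.aemeasurable ?_ hUo.measurableSet⟩
    exact fun x hx => (hU x hx).continuousAt.continuousWithinAt
  mul := fun f g => (hmul f g).filter_mono inf_le_left
  ne := fun f => eventually_ae_ne (han f) (hne f)
  bdd := by
    intro f
    refine ⟨‖ev f a‖ + 1, Eventually.filter_mono inf_le_left ?_⟩
    exact (((han f).continuousAt.norm.tendsto).eventually_lt_const (lt_add_one _)).mono
      fun x hx => hx.le

/-! ### The exponent set at a point of an affine algebra -/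

variable {R : Type} [CommRing R] [Algebra ℂ R] {H : Type*} {m : ℕ}

/-- The set of the exponent vectors `k` for which `∏ |r f|^{-2 k f}` is integrable near `φ`. -/
def ES (m : ℕ) (r : H → R) (φ : R →ₐ[ℂ] ℂ) : Set (H →₀ ℝ) :=
  {k | IntAt m φ (wt (fun f χ => χ (r f)) k)}

variable {φ : R →ₐ[ℂ] ℂ} {r : H → R}

theorem ES_eq_PP (c : Chart φ m) : ES m r φ = PP volume (𝓝 0) (fun f x => c.ψ x (r f)) := by
  ext k
  exact c.intAt_iff

/-- The exponent set at the points near `φ`, in the chart at `φ`. -/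
theorem eventually_ES_eq_PP (c : Chart φ m) : ∀ᶠ y in 𝓝 (0 : Fin m → ℂ), ∀ {H : Type*}
    (r : H → R), ES m r (c.ψ y) = PP volume (𝓝 y) (fun f x => c.ψ x (r f)) := by
  filter_upwards [c.eventually_intAt_iff] with y hy H r
  ext k
  exact hy _

/-- Openness. -/
theorem eventually_mem_ES (c : Chart φ m) {k : H →₀ ℝ} (hk : k ∈ ES m r φ) :
    ∀ᶠ χ in 𝓝 φ, k ∈ ES m r χ := c.eventually_intAt hk

end Vale.Agent.P271.Inst
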