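import Vale.Agent.P271.Sch.Hub
import Vale.Agent.P271.Zorn.Abs

/-!
# P271, block INST: the monoid of the nonzero homogeneous elements of a graded cone
-/

namespace Vale.Agent.P271.Inst

open Sch

variable {n : ℕ} (C : GCone n)

/-- The nonzero homogeneous elements. -/
def HM : Submonoid C.R where
  carrier := {f | f ≠ 0 ∧ ∃ d, f ∈ C.A d}
  one_mem' := ⟨one_ne_zero, 0, SetLike.GradedOne.one_mem⟩
  mul_mem' := by
    rintro f g ⟨hf, d, hd⟩ ⟨hg, e, he⟩
    exact ⟨mul_ne_zero hf hg, d + e, SetLike.GradedMul.mul_mem hd he⟩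

variable {C}

theorem mem_HM {f : C.R} : f ∈ HM C ↔ f ≠ 0 ∧ ∃ d, f ∈ C.A d := Iff.rfl

namespace HM

theorem ne (f : HM C) : (f : C.R) ≠ 0 := f.2.1

/-- the degree -/
noncomputable def deg (f : HM C) : ℕ := f.2.2.choose

theorem deg_mem (f : HM C) : (f : C.R) ∈ C.A (deg f) := f.2.2.choose_spec

/-- The degree of a nonzero homogeneous element is unique. -/
theorem deg_unique {f : C.R} (hf : f ≠ 0) {d e : ℕ} (hd : f ∈ C.A d) (he : f ∈ C.A e) : d = e := by
  by_contra h
  have h1 := DirectSum.decompose_of_mem_ne C.A hd h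
  have h2 := DirectSum.decompose_of_mem_same C.A he
  exact hf (h2.symm.trans h1)

theorem deg_eq (f : HM C) {d : ℕ} (h : (f : C.R) ∈ C.A d) : deg f = d :=
  deg_unique (HM.ne f) (deg_mem f) h

theorem deg_mul (f g : HM C) : deg (f * g) = deg f + deg g :=
  deg_eq _ (SetLike.GradedMul.mul_mem (deg_mem f) (deg_mem g))

theorem deg_one : deg (1 : HM C) = 0 := deg_eq _ SetLike.GradedOne.one_mem

end HM

/-- `h = f + g` -/
def SumRel (f g h : HM C) : Prop := (h : C.R) = f + g

theorem SumRel.deg {f g h : HM C} (hs : SumRel f g h) :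
    HM.deg f = HM.deg h ∧ HM.deg g = HM.deg h := by
  have key : ∀ {a b c : C.R} {i j k : ℕ}, a ≠ 0 → b ≠ 0 → c ≠ 0 → a ∈ C.A i → b ∈ C.A j →
      c ∈ C.A k → c = a + b → i = k := by
    intro a b c i j k ha hb hc hi hj hk hs
    by_contra hik
    have h1 : (DirectSum.decompose C.A c i : C.R) = 0 :=
      DirectSum.decompose_of_mem_ne C.A hk (Ne.symm hik)
    rw [hs, DirectSum.decompose_add, DirectSum.add_apply, Submodule.coe_add,
      DirectSum.decompose_of_mem_same C.A hi] at h1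
    by_cases hij : j = i
    · subst hij
      rw [DirectSum.decompose_of_mem_same C.A hj] at h1
      exact hc (hs.trans h1)
    · rw [DirectSum.decompose_of_mem_ne C.A hj hij, add_zero] at h1
      exact ha h1
  refine ⟨key (HM.ne f) (HM.ne g) (HM.ne h) (HM.deg_mem f) (HM.deg_mem g) (HM.deg_mem h) hs, ?_⟩
  exact key (HM.ne g) (HM.ne f) (HM.ne h) (HM.deg_mem g) (HM.deg_mem f) (HM.deg_mem h) (by rw [hs, add_comm])

end Vale.Agent.P271.Inst
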