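import Vale.Agent.P271.Inst.Cov

/-!
# P271, block INST: the local statements (A4), (A5), (A7), (A9) on `ℂ^m`, in the form in which they
are pulled back to the points of a cone
-/

namespace Vale.Agent.P271.Inst

open Filter Topology Metric Set MeasureTheory
open scoped ENNReal

/-- `f` is not identically zero near `a` -/
def NZ {m : ℕ} (a : Fin m → ℂ) (f : (Fin m → ℂ) → ℂ) : Prop := ¬ ∀ᶠ x in 𝓝 a, f x = 0

/-- `e^{-2u}` is integrable near `a` -/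
def EI {m : ℕ} (a : Fin m → ℂ) (u : (Fin m → ℂ) → ℝ) : Prop :=
  LInt a fun x => ENNReal.ofReal (Real.exp (-2 * u x))

/-- (A5): `|f|^{-2t}` is integrable for small `t` -/
def A5Stat : Prop := ∀ (m : ℕ) (a : Fin m → ℂ) (f : (Fin m → ℂ) → ℂ), AnalyticAt ℂ f a → NZ a f →
  ∃ t : ℝ, 0 < t ∧ EI a fun x => t * Real.log ‖f x‖

/-- (A7): `|f|^{-2κ}` is not integrable at a zero of `f`, `κ ≥ 1` -/
def A7Stat : Prop := ∀ (m : ℕ) (a : Fin m → ℂ) (f : (Fin m → ℂ) → ℂ), AnalyticAt ℂ f a → NZ a f →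
  f a = 0 → ∀ κ : ℝ, (EI a fun x => κ * Real.log ‖f x‖) → κ < 1

/-- (A4): the summation formula -/
def A4Stat : Prop := ∀ (m : ℕ) (a : Fin m → ℂ) (ι : Type) [Fintype ι]
  (g : ι → (Fin m → ℂ) → ℂ) (κ : ι → ℝ) (f₁ f₂ : (Fin m → ℂ) → ℂ),
  (∀ i, AnalyticAt ℂ (g i) a) → (∀ i, NZ a (g i)) → (∀ i, 0 ≤ κ i) →
  AnalyticAt ℂ f₁ a → AnalyticAt ℂ f₂ a → NZ a f₁ → NZ a f₂ → NZ a (fun x => f₁ x + f₂ x) →
  ∀ K e : ℝ, 0 < e → e ≤ K →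
  (EI a fun x => ∑ i, κ i * Real.log ‖g i x‖ + K * Real.log ‖f₁ x + f₂ x‖) →
  ∃ K₁ K₂ : ℝ, 0 ≤ K₁ ∧ 0 ≤ K₂ ∧ K₁ + K₂ = K - e ∧
    EI a fun x => ∑ i, κ i * Real.log ‖g i x‖ + (K₁ * Real.log ‖f₁ x‖ + K₂ * Real.log ‖f₂ x‖)

/-- (A9): lower semicontinuity in the point and in the functions -/
def A9Stat : Prop := ∀ (m : ℕ) (a : Fin m → ℂ) (ρ : ℝ) (ι : Type) [Fintype ι]
  (g : ℕ → ι → (Fin m → ℂ) → ℂ) (g' : ι → (Fin m → ℂ) → ℂ) (κ : ι → ℝ) (x : ℕ → Fin m → ℂ),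
  0 < ρ → (∀ n i, AnalyticOnNhd ℂ (g n i) (ball a ρ)) → (∀ i, AnalyticOnNhd ℂ (g' i) (ball a ρ)) →
  (∀ i, NZ a (g' i)) → (∀ i, TendstoUniformlyOn (fun n => g n i) (g' i) atTop (ball a ρ)) →
  Tendsto x atTop (𝓝 a) → (∀ i, 0 ≤ κ i) → (EI a fun y => ∑ i, κ i * Real.log ‖g' i y‖) →
  ∀ θ : ℝ, 0 ≤ θ → θ < 1 →
    ∀ᶠ n in atTop, EI (x n) fun y => ∑ i, θ * κ i * Real.log ‖g n i y‖

end Vale.Agent.P271.Inst
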