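import Vale.Agent.P271.Inst.ChartL
import Vale.Agent.P271.Inst.Stat

/-!
# P271, block INST: lower semicontinuity (A9) at the points of an affine algebra
(helper493)
-/

namespace Vale.Agent.P271.Inst

open Filter Topology Metric Set MeasureTheory Vale.Agent.P271.H741
open scoped ENNReal Vale.Agent.P271.Inst

/-- A convergent sequence of elements of a finite dimensional space of functions converges
uniformly near the point. -/
theorem tendstoUniformlyOn_chart {R : Type} [CommRing R] [Algebra ℂ R] {φ : R →ₐ[ℂ] ℂ} {m : ℕ}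
    (c : Chart φ m) (V : Submodule ℂ R) [FiniteDimensional ℂ V] (b : ℕ → V) (b' : V)
    (hlim : ∀ f : V →ₗ[ℂ] ℂ, Tendsto (fun n => f (b n)) atTop (𝓝 (f b'))) :
    TendstoUniformlyOn (fun n y => c.ψ y (b n : R)) (fun y => c.ψ y (b' : R)) atTop
      (ball (0 : Fin m → ℂ) (c.ρ / 2)) := by
  have hρ := c.ρ_pos
  let v := Module.finBasis ℂ V
  have hB : ∀ j, ∃ B : ℝ, ∀ y ∈ ball (0 : Fin m → ℂ) (c.ρ / 2), ‖c.ψ y (v j : R)‖ ≤ B := by
    intro j
    have h1 : IsCompact (closedBall (0 : Fin m → ℂ) (c.ρ / 2)) := isCompact_closedBall _ _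
    have h2 : closedBall (0 : Fin m → ℂ) (c.ρ / 2) ⊆ ball 0 c.ρ :=
      closedBall_subset_ball (by linarith)
    have h3 : ContinuousOn (fun y => c.ψ y (v j : R)) (closedBall (0 : Fin m → ℂ) (c.ρ / 2)) :=
      ((c.holo (v j : R)).continuousOn).mono h2
    obtain ⟨B, hB⟩ := h1.exists_bound_of_continuousOn h3
    exact ⟨B, fun y hy => hB y (ball_subset_closedBall hy)⟩
  choose B hB using hB
  have hexp : ∀ (w : V) (y : Fin m → ℂ), c.ψ y (w : R) = ∑ j, v.coord j w * c.ψ y (v j : R) := by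
    intro w y
    have h1 : (w : R) = ∑ j, v.coord j w • (v j : R) := by
      have h2 := congrArg (V.subtype) (v.sum_repr w)
      rw [map_sum] at h2
      simpa using h2.symm
    rw [h1, map_sum]
    refine Finset.sum_congr rfl fun j _ => ?_
    rw [map_smul, smul_eq_mul]
  rw [Metric.tendstoUniformlyOn_iff]
  intro ε hε
  have h1 : Tendsto (fun n => ∑ j, ‖v.coord j b' - v.coord j (b n)‖ * |B j|) atTop (𝓝 0) := by
    have h2 : Tendsto (fun n => ∑ j, ‖v.coord j b' - v.coord j (b n)‖ * |B j|) atTop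
        (𝓝 (∑ j, ‖v.coord j b' - v.coord j b'‖ * |B j|)) := by
      refine tendsto_finsetSum _ fun j _ => ?_
      exact ((tendsto_const_nhds.sub (hlim (v.coord j))).norm).mul_const _
    simpa using h2
  filter_upwards [h1.eventually (gt_mem_nhds hε)] with n hn y hy
  rw [dist_eq_norm, hexp b' y, hexp (b n) y, ← Finset.sum_sub_distrib]
  refine lt_of_le_of_lt (norm_sum_le _ _) (lt_of_le_of_lt (Finset.sum_le_sum fun j _ => ?_) hn)
  rw [← sub_mul, norm_mul]
  exact mul_le_mul_of_nonneg_left ((hB j y hy).trans (le_abs_self _)) (norm_nonneg _)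

/-- (A9) at the points of an affine algebra with a chart. -/
theorem lsc_pull (h9 : A9Stat) {R : Type} [CommRing R] [Algebra ℂ R] {φ : R →ₐ[ℂ] ℂ} {m : ℕ}
    (c : Chart φ m) (hinj : ∀ f : R, f ≠ 0 → NZ 0 (fun x => c.ψ x f))
    (V : Submodule ℂ R) [FiniteDimensional ℂ V] {ι : Type} [Fintype ι]
    (b : ℕ → ι → V) (b' : ι → V) (κ : ι → ℝ) (hκ : ∀ i, 0 ≤ κ i)
    (hb : ∀ i, κ i ≠ 0 → b' i ≠ 0)
    (hlim : ∀ (f : V →ₗ[ℂ] ℂ) (i : ι), Tendsto (fun n => f (b n i)) atTop (𝓝 (f (b' i))))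
    (x : ℕ → (R →ₐ[ℂ] ℂ)) (hx : Tendsto x atTop (𝓝 φ))
    (hI : IntAt m φ
      (fun χ => ENNReal.ofReal (Real.exp (-2 * ∑ i, κ i * Real.log ‖χ (b' i : R)‖))))
    (θ : ℝ) (h0 : 0 ≤ θ) (h1 : θ < 1) :
    ∀ᶠ n in atTop, IntAt m (x n)
      (fun χ => ENNReal.ofReal (Real.exp (-2 * ∑ i, θ * κ i * Real.log ‖χ (b n i : R)‖))) := by
  classical
  have hρ := c.ρ_pos
  -- restriction to the indices with `κ i ≠ 0`
  have hsum : ∀ (t : ℝ) (F : ι → ℝ), ∑ i : {i // κ i ≠ 0}, t * κ i * F i = ∑ i, t * κ i * F i := by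
    intro t F
    rw [← Fintype.sum_subtype_add_sum_subtype (fun i => κ i ≠ 0) (fun i => t * κ i * F i)]
    have : ∑ i : {i // ¬ (κ i ≠ 0)}, t * κ i * F i = 0 := by
      refine Finset.sum_eq_zero fun i _ => ?_
      have hi : κ (i : ι) = 0 := not_not.mp i.2
      rw [hi]
      ring
    rw [this, add_zero]
  have hsum1 : ∀ (F : ι → ℝ), ∑ i : {i // κ i ≠ 0}, κ i * F i = ∑ i, κ i * F i := by
    intro F
    have := hsum 1 F
    simpa using this
  rw [c.intAt_iff] at hI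
  have hI' : EI (0 : Fin m → ℂ) fun y =>
      ∑ i : {i // κ i ≠ 0}, κ i * Real.log ‖c.ψ y (b' i : R)‖ := by
    unfold EI
    have h2 : (fun y : Fin m → ℂ => ENNReal.ofReal (Real.exp (-2 *
        ∑ i : {i // κ i ≠ 0}, κ i * Real.log ‖c.ψ y (b' i : R)‖)))
        = fun y => ENNReal.ofReal (Real.exp (-2 * ∑ i, κ i * Real.log ‖c.ψ y (b' i : R)‖)) := by
      funext y
      rw [hsum1 (fun i => Real.log ‖c.ψ y (b' i : R)‖)]
    rw [h2]
    exact hI
  have hball : ball (0 : Fin m → ℂ) (c.ρ / 2) ⊆ ball 0 c.ρ := ball_subset_ball (by linarith)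
  have key := h9 m 0 (c.ρ / 2) {i // κ i ≠ 0} (fun n i y => c.ψ y (b n i : R))
    (fun i y => c.ψ y (b' i : R)) (fun i => κ i) (fun n => c.X (x n)) (by linarith)
    (fun n i => (c.holo (b n i : R)).mono hball) (fun i => (c.holo (b' i : R)).mono hball)
    (fun i => hinj _ (fun h => hb i i.2 (Subtype.ext h)))
    (fun i => tendstoUniformlyOn_chart c V (fun n => b n i) (b' i) (fun f => hlim f i))
    (c.tendsto_X.comp hx) (fun i => hκ i) hI' θ h0 h1
  have h2 := (c.tendsto_X.comp hx).eventually c.eventually_intAt_iff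
  have h3 := hx.eventually c.near
  filter_upwards [key, h2, h3] with n hn hn2 hn3
  have h4 := hn2 (fun χ => ENNReal.ofReal (Real.exp (-2 * ∑ i, θ * κ i *
    Real.log ‖χ (b n i : R)‖)))
  simp only [Function.comp_apply, hn3.2] at h4
  rw [h4]
  unfold EI at hn
  have h5 : (fun y : Fin m → ℂ => ENNReal.ofReal (Real.exp (-2 *
      ∑ i : {i // κ i ≠ 0}, θ * κ i * Real.log ‖c.ψ y (b n i : R)‖)))
      = fun y => ENNReal.ofReal (Real.exp (-2 * ∑ i, θ * κ i * Real.log ‖c.ψ y (b n i : R)‖)) := by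
    funext y
    rw [hsum θ (fun i => Real.log ‖c.ψ y (b n i : R)‖)]
  rw [h5] at hn
  exact hn

end Vale.Agent.P271.Inst
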