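import Vale.Agent.P271.Inst.Lift
import Vale.Agent.P271.Inst.Lsc
import Vale.Agent.P271.LOC9.Stat

/-!
# P271, block INST, part 8: the system of the exponent sets at the points of a graded cone
-/

namespace Vale.Agent.P271.Inst

open Filter Topology Metric Set MeasureTheory Vale.Agent.P271.H741 Vale.Agent.P271.Zorn Finsupp Sch
open scoped ENNReal

variable {n : ℕ} {C : GCone n}

/-- (A9) -/
theorem lsc_cone (V : Submodule ℂ C.R) [FiniteDimensional ℂ V]
    (hV : ∀ v ∈ V, Exp.HmOf (HM C) v) {ι : Type} [Fintype ι] (b : ℕ → ι → V) (b' : ι → V)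
    (x : ℕ → UPt C) (x' : UPt C) (κ : ι → ℝ) (hκ : ∀ i, 0 ≤ κ i)
    (hm : ∑ i, single (b' i : C.R) (κ i) ∈ Exp.extP (HM C) (gP C x'))
    (hlim : ∀ (f : V →ₗ[ℂ] ℂ) (i : ι), Tendsto (fun n => f (b n i)) atTop (𝓝 (f (b' i))))
    (hx : Tendsto x atTop (𝓝 x')) (θ : ℝ) (h0 : 0 ≤ θ) (h1 : θ < 1) :
    ∀ᶠ n in atTop, ∑ i, single (b n i : C.R) (θ * κ i) ∈ Exp.extP (HM C) (gP C (x n)) := by
  have hb0 : ∀ i, κ i ≠ 0 → (b' i : C.R) ∈ HM C := fun i hi =>
    hm.1 _ (mem_support_of_pos (g := fun i => (b' i : C.R)) hκ hi)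
  obtain ⟨c⟩ := nonempty_chart x'.2
  have hI : IntAt (n + 1) x'.1 (fun χ =>
      ENNReal.ofReal (Real.exp (-2 * ∑ i, κ i * Real.log ‖χ (b' i : C.R)‖))) :=
    (sum_single_mem_extP (g := fun i => (b' i : C.R)) hb0).1 hm
  have hx1 : Tendsto (fun k => (x k).1) atTop (𝓝 x'.1) :=
    (continuous_subtype_val.tendsto x').comp hx
  have h2 := lsc_pull LOC9.a9Stat c (fun f hf => nz_chart c hf) V b b' κ hκ
    (fun i hi h => (hb0 i hi).1 (by rw [h]; rfl)) hlim (fun k => (x k).1) hx1 hI θ h0 h1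
  have h3 : ∀ i, κ i ≠ 0 → ∀ᶠ k in atTop, b k i ≠ 0 := by
    intro i hi
    have h4 : b' i ≠ 0 := fun h => (hb0 i hi).1 (by rw [h]; rfl)
    obtain ⟨f, hf⟩ : ∃ f : V →ₗ[ℂ] ℂ, f (b' i) ≠ 0 := by
      by_contra hcon
      push Not at hcon
      exact h4 ((Module.forall_dual_apply_eq_zero_iff ℂ (b' i)).1 hcon)
    filter_upwards [(hlim f i).eventually_ne hf] with k hk h5
    rw [h5, map_zero] at hk
    exact hk rfl
  have h4 : ∀ᶠ k in atTop, ∀ i, κ i ≠ 0 → b k i ≠ 0 := by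
    rw [eventually_all]
    intro i
    by_cases hi : κ i = 0
    · exact Eventually.of_forall fun k h => absurd hi h
    · exact (h3 i hi).mono fun k hk _ => hk
  filter_upwards [h2, h4] with k hk hk2
  refine (sum_single_mem_extP (g := fun i => (b k i : C.R)) fun i hi => ?_).2 hk
  have hi' : κ i ≠ 0 := fun h => hi (by rw [h, mul_zero])
  rcases hV _ (b k i).2 with h | h
  · exact h
  · exact absurd (Subtype.ext h) (hk2 i hi')

variable (C) in
/-- **The exponent sets at the points of a graded cone.** -/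
noncomputable def sysOf (h4 : A4Stat) : Exp.ExpSys C.R (Exp.HmOf (HM C)) (UPt C) where
  ev := fun x => x.1
  P := fun x => Exp.extP (HM C) (gP C x)
  hm_algebraMap := hm_algebraMap
  isExp := isExp h4
  unit := fun x _ hf h => isUnitAt x hf h
  nonint := fun x _ _ hf h hκ => nonint x hf h hκ
  lsc := fun V _ hV _ _ b b' x x' κ hκ hm hlim hx θ h0 h1 =>
    lsc_cone V hV b b' x x' κ hκ hm hlim hx θ h0 h1

/-- The points near a point (openness of integrability), `244`'s `NearData.near`. -/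
theorem eventually_mem_gP {x : UPt C} {k : HM C →₀ ℝ} (hk : k ∈ gP C x) :
    ∀ᶠ y in 𝓝 x, k ∈ gP C y := by
  obtain ⟨c⟩ := nonempty_chart x.2
  exact (continuous_subtype_val.tendsto x).eventually (eventually_mem_ES c hk)

end Vale.Agent.P271.Inst
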