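import Vale.Agent.P271.Inst.Ev
import Vale.Agent.P271.Inst.Stat
import Vale.Agent.P271.H26.Dens

/-!
# P271, block INST, part 5: the exponent data `Zorn.Dat` at a point of an affine algebra
-/

namespace Vale.Agent.P271.Inst

open Filter Topology Metric Set MeasureTheory Vale.Agent.P271.H741 Vale.Agent.P271.Zorn Finsupp
open scoped ENNReal

/-! ### Local statements in the language of exponent sets -/

section loc

variable {H : Type} {m : ℕ} {a : Fin m → ℂ} {ev : H → (Fin m → ℂ) → ℂ}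

theorem mem_PP_iff {k : H →₀ ℝ} : k ∈ PP volume (𝓝 a) ev ↔ EI a (lg ev k) := Iff.rfl

theorem EI.congr {u u' : (Fin m → ℂ) → ℝ} (h : ∀ᶠ x in 𝓝 a, u x = u' x) : EI a u ↔ EI a u' := by
  refine LInt.congr ?_
  filter_upwards [h] with x hx
  rw [hx]

theorem lg_eq (k : H →₀ ℝ) (x : Fin m → ℂ) :
    lg ev k x = ∑ f : k.support, k f * Real.log ‖ev f x‖ := by
  rw [lg, pair_def]
  exact (Finset.sum_coe_sort k.support fun f => k f * Real.log ‖ev f x‖).symm

/-- (A5) -/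
theorem pos_of (h5 : A5Stat) (han : ∀ f, AnalyticAt ℂ (ev f) a) (hne : ∀ f, NZ a (ev f)) (f : H) :
    ∃ t : ℝ, 0 < t ∧ single f t ∈ PP volume (𝓝 a) ev := by
  obtain ⟨t, ht, h⟩ := h5 m a (ev f) (han f) (hne f)
  refine ⟨t, ht, ?_⟩
  rw [mem_PP_iff]
  refine (EI.congr (Eventually.of_forall fun x => ?_)).2 h
  rw [lg_single]

/-- (A7) -/
theorem nonint_of (h7 : A7Stat) (han : ∀ f, AnalyticAt ℂ (ev f) a) (hne : ∀ f, NZ a (ev f)) {f : H}
    (hf : ev f a = 0) {κ : ℝ} (h : single f κ ∈ PP volume (𝓝 a) ev) : κ < 1 := by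
  refine h7 m a (ev f) (han f) (hne f) hf κ ?_
  rw [mem_PP_iff] at h
  refine (EI.congr (Eventually.of_forall fun x => ?_)).1 h
  rw [lg_single]

/-- (A4) -/
theorem sum_of (h4 : A4Stat) (han : ∀ f, AnalyticAt ℂ (ev f) a) (hne : ∀ f, NZ a (ev f))
    (k : H →₀ ℝ) (hk : ∀ x, 0 ≤ k x) (f g s : H) (hs : ∀ᶠ x in 𝓝 a, ev s x = ev f x + ev g x)
    (K e : ℝ) (he : 0 < e) (heK : e ≤ K) (h : k + single s K ∈ PP volume (𝓝 a) ev) :
    ∃ K₁ K₂ : ℝ, 0 ≤ K₁ ∧ 0 ≤ K₂ ∧ K₁ + K₂ = K - e ∧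
      k + single f K₁ + single g K₂ ∈ PP volume (𝓝 a) ev := by
  obtain ⟨K₁, K₂, h1, h2, h3, h6⟩ := h4 m a k.support (fun i => ev i) (fun i => k i)
    (ev f) (ev g) (fun i => han i) (fun i => hne i) (fun i => hk i) (han f) (han g) (hne f) (hne g)
    (by
      intro h0
      refine hne s ?_
      filter_upwards [hs, h0] with x hx hx0
      rw [hx, hx0])
    K e he heK (by
      rw [mem_PP_iff] at h
      refine (EI.congr ?_).1 h
      filter_upwards [hs] with x hx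
      rw [lg_add, lg_single, lg_eq, hx])
  refine ⟨K₁, K₂, h1, h2, h3, ?_⟩
  rw [mem_PP_iff]
  refine (EI.congr (Eventually.of_forall fun x => ?_)).2 h6
  rw [lg_add, lg_add, lg_single, lg_single, lg_eq, add_assoc]

end loc

/-! ### Points of an affine algebra -/

section alg

variable {R : Type} [CommRing R] [IsDomain R] [Algebra ℂ R] [Algebra.FiniteType ℂ R]
  {φ : R →ₐ[ℂ] ℂ} {m : ℕ}

/-- A nonzero element is not identically zero near a point. -/
theorem nz_chart (c : Chart φ m) {f : R} (hf : f ≠ 0) : NZ 0 (fun x => c.ψ x f) := by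
  intro h
  have h1 : ∀ᶠ χ in 𝓝 φ, χ f = 0 := by
    rw [← c.map_nhds]
    exact h
  obtain ⟨S, δ, hδ, h2⟩ := mem_nhds_iff_finset.1 h1
  obtain ⟨χ, h3, h4⟩ := H26.dens_alg φ f hf S hδ
  exact h4 (h2 χ h3)

variable {H : Submonoid R}

theorem isEv_chart (h0 : (0 : R) ∉ H) (c : Chart φ m) :
    IsEv volume (𝓝 (0 : Fin m → ℂ)) (fun (f : H) x => c.ψ x (f : R)) :=
  isEv (fun f => c.holo f 0 c.mem0) (fun _ _ => Eventually.of_forall fun _ => map_mul _ _ _)
    (fun f => nz_chart c (fun h => h0 (h ▸ f.2)))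

/-- The exponent data at the point `φ`. -/
noncomputable def dat (h4 : A4Stat) (h5 : A5Stat) (h0 : (0 : R) ∉ H) (hc : Nonempty (Chart φ m)) :
    Dat H where
  Sum := fun f g h => (h : R) = f + g
  P := ES m (fun f : H => (f : R)) φ
  conv := by
    obtain ⟨c⟩ := hc
    rw [ES_eq_PP c]
    exact (isEv_chart h0 c).conv
  down := by
    obtain ⟨c⟩ := hc
    rw [ES_eq_PP c]
    exact (isEv_chart h0 c).down
  pos := by
    obtain ⟨c⟩ := hc
    rw [ES_eq_PP c]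
    exact pos_of (ev := fun (f : H) x => c.ψ x (f : R)) h5 (fun f => c.holo f 0 c.mem0) (fun f => nz_chart c (fun h => h0 (h ▸ f.2)))
  mul := by
    obtain ⟨c⟩ := hc
    rw [ES_eq_PP c]
    exact (isEv_chart h0 c).mem_mul
  sum := by
    obtain ⟨c⟩ := hc
    rw [ES_eq_PP c]
    intro k hk f g s hs
    refine sum_of (ev := fun (f : H) x => c.ψ x (f : R)) h4 (fun f => c.holo f 0 c.mem0)
      (fun f => nz_chart c (fun h => h0 (h ▸ f.2))) k hk f g s (Eventually.of_forall fun x => ?_)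
    rw [hs, map_add]

theorem dat_P (h4 : A4Stat) (h5 : A5Stat) (h0 : (0 : R) ∉ H) (hc : Nonempty (Chart φ m)) :
    (dat h4 h5 h0 hc).P = ES m (fun f : H => (f : R)) φ := rfl

/-- (A6) -/
theorem ES_unit (h0 : (0 : R) ∉ H) (hc : Nonempty (Chart φ m)) {f : H} (hf : φ (f : R) ≠ 0)
    {k : H →₀ ℝ} (hk : k ∈ ES m (fun f : H => (f : R)) φ) (t : ℝ) :
    k + single f t ∈ ES m (fun f : H => (f : R)) φ := by
  obtain ⟨c⟩ := hc
  rw [ES_eq_PP c] at hk ⊢
  have h1 : 0 < ‖φ (f : R)‖ := norm_pos_iff.2 hf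
  have h2 : ∀ᶠ x in 𝓝 (0 : Fin m → ℂ), ‖φ (f : R)‖ / 2 ≤ ‖c.ψ x (f : R)‖ := by
    have h3 : Tendsto (fun χ : R →ₐ[ℂ] ℂ => ‖χ (f : R)‖) (𝓝 φ) (𝓝 ‖φ (f : R)‖) :=
      ((continuous_ev (f : R)).tendsto φ).norm
    exact (c.tendsto_ψ.eventually (h3.eventually_const_lt (by linarith))).mono fun x hx => hx.le
  exact (isEv_chart h0 c).mem_unit (by linarith) (h2.filter_mono inf_le_left) k hk t

/-- (A7) -/
theorem ES_nonint (h7 : A7Stat) (h0 : (0 : R) ∉ H) (hc : Nonempty (Chart φ m)) {f : H}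
    (hf : φ (f : R) = 0) {κ : ℝ} (h : single f κ ∈ ES m (fun f : H => (f : R)) φ) : κ < 1 := by
  obtain ⟨c⟩ := hc
  rw [ES_eq_PP c] at h
  refine nonint_of (ev := fun (f : H) x => c.ψ x (f : R)) h7 (fun f => c.holo f 0 c.mem0)
    (fun f => nz_chart c (fun h => h0 (h ▸ f.2))) ?_ h
  show c.ψ 0 (f : R) = 0
  rw [c.zero]
  exact hf

end alg

end Vale.Agent.P271.Inst
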