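import Vale.Agent.P271.H879.Chart
import Vale.Agent.P271.Inst.Hom
import Vale.Agent.P271.Inst.ChartL

/-!
# P271, block INST, part 6: charts at the points of a graded cone
-/

namespace Vale.Agent.P271.Inst

open Filter Topology Metric Set Vale.Agent.P271.H741 Sch

variable {n : ℕ} {C : GCone n}

/-- Charts at the points of a graded cone different from the vertex. -/
theorem exists_gchart {φ : C.Pt} (h : GCone.NV φ) : ∃ c : Chart φ (n + 1),
    ∀ r, φ r = 0 → ∃ s, φ s ≠ 0 ∧ s * r ∈ Ideal.span (Set.range c.t) := by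
  have := C.finiteType
  have hs : Function.Surjective (φ : C.R →+* ℂ) := fun z =>
    ⟨algebraMap ℂ C.R z, by simp⟩
  have hmax : (RingHom.ker (φ : C.R →+* ℂ)).IsMaximal := RingHom.ker_isMaximal_of_surjective _ hs
  have hp : ∀ r, r ∈ RingHom.ker (φ : C.R →+* ℂ) ↔ φ r = 0 := fun r => Iff.rfl
  obtain ⟨k, hk, s, hs, hne⟩ := h
  obtain ⟨h1, h2⟩ := C.regular (RingHom.ker (φ : C.R →+* ℂ)) ⟨k, hk, s, hs, fun h => hne ((hp s).1 h)⟩
  exact H879.exists_chart φ (RingHom.ker (φ : C.R →+* ℂ)) hp h1 h2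

theorem nonempty_chart {φ : C.Pt} (h : GCone.NV φ) : Nonempty (Chart φ (n + 1)) := by
  obtain ⟨c, -⟩ := exists_gchart h
  exact ⟨c⟩

/-- The set of the points different from the vertex is open. -/
theorem eventually_NV {φ : C.Pt} (h : GCone.NV φ) : ∀ᶠ χ in 𝓝 φ, GCone.NV χ := by
  obtain ⟨k, hk, s, hs, hne⟩ := h
  filter_upwards [eventually_ne hne] with χ hχ
  exact ⟨k, hk, s, hs, hχ⟩

end Vale.Agent.P271.Inst
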