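import Vale.Agent.P271.H604.Sys
import Vale.Agent.P271.H604.OfDat
import Vale.Agent.P271.Inst.Dat
import Vale.Agent.P271.Inst.GChart
import Vale.Agent.P271.LOCE.Stat

/-!
# P271, block INST, part 7: exponent sets at the points of a graded cone, preparations
-/

namespace Vale.Agent.P271.Inst

open Filter Topology Metric Set MeasureTheory Vale.Agent.P271.H741 Vale.Agent.P271.Zorn Finsupp Sch
open scoped ENNReal

/-! ### Exponent vectors on the ring -/

theorem pair_mapDomain {α β : Type*} (e : α → β) (k : α →₀ ℝ) (w : β → ℝ) :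
    pair (k.mapDomain e) w = pair k fun a => w (e a) := by
  unfold pair
  exact Finsupp.linearCombination_mapDomain (R := ℝ) (v' := w) e k

theorem pair_sum_single {α ι : Type*} [Fintype ι] (g : ι → α) (κ : ι → ℝ) (w : α → ℝ) :
    pair (∑ i, single (g i) (κ i)) w = ∑ i, κ i * w (g i) := by
  unfold pair
  rw [map_sum]
  exact Finset.sum_congr rfl fun i _ => by rw [linearCombination_single, smul_eq_mul]

theorem exists_of_mem_support {α ι : Type*} [Fintype ι] {g : ι → α} {κ : ι → ℝ} {f : α}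
    (hf : f ∈ (∑ i, single (g i) (κ i) : α →₀ ℝ).support) : ∃ i, g i = f ∧ κ i ≠ 0 := by
  classical
  by_contra h
  push Not at h
  rw [Finsupp.mem_support_iff, Finsupp.finsetSum_apply] at hf
  refine hf (Finset.sum_eq_zero fun i _ => ?_)
  rw [single_apply]
  split_ifs with h1
  · exact h i h1
  · rfl

theorem mem_support_of_pos {α ι : Type*} [Fintype ι] {g : ι → α} {κ : ι → ℝ} (hκ : ∀ i, 0 ≤ κ i)
    {i : ι} (hi : κ i ≠ 0) : g i ∈ (∑ i, single (g i) (κ i) : α →₀ ℝ).support := by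
  classical
  rw [Finsupp.mem_support_iff, Finsupp.finsetSum_apply]
  refine ne_of_gt (Finset.sum_pos' (fun j _ => ?_) ⟨i, Finset.mem_univ i, ?_⟩)
  · rw [single_apply]
    split_ifs
    · exact hκ j
    · exact le_rfl
  · rw [single_eq_same]
    exact lt_of_le_of_ne (hκ i) (Ne.symm hi)

section

variable {R : Type} [CommRing R] [Algebra ℂ R] {φ : R →ₐ[ℂ] ℂ} {m : ℕ} {H : Submonoid R}

theorem mem_extP_ES {k : R →₀ ℝ} (hk : ∀ f ∈ k.support, f ∈ H) :
    k ∈ Exp.extP H (ES m (fun f : H => (f : R)) φ) ↔ IntAt m φ (fun χ =>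
      ENNReal.ofReal (Real.exp (-2 * pair k fun f => Real.log ‖χ f‖))) := by
  obtain ⟨k', rfl⟩ : ∃ k' : H →₀ ℝ, k'.mapDomain (fun h : H => (h : R)) = k :=
    ⟨_, Finsupp.mapDomain_comapDomain _ Subtype.val_injective k fun f hf => ⟨⟨f, hk f hf⟩, rfl⟩⟩
  rw [Exp.mapDomain_mem_extP]
  simp only [pair_mapDomain]
  exact Iff.rfl

theorem sum_single_mem_extP {ι : Type*} [Fintype ι] {g : ι → R} {κ : ι → ℝ}
    (hg : ∀ i, κ i ≠ 0 → g i ∈ H) :
    ∑ i, single (g i) (κ i) ∈ Exp.extP H (ES m (fun f : H => (f : R)) φ) ↔ IntAt m φ (fun χ =>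
      ENNReal.ofReal (Real.exp (-2 * ∑ i, κ i * Real.log ‖χ (g i)‖))) := by
  rw [mem_extP_ES]
  · simp only [pair_sum_single]
  · intro f hf
    obtain ⟨i, rfl, hi⟩ := exists_of_mem_support hf
    exact hg i hi

end

/-! ### Graded cones -/

section cone

variable {n : ℕ} {C : GCone n}

instance finiteType_cone : Algebra.FiniteType ℂ C.R := C.finiteType

theorem zero_notMem_HM : (0 : C.R) ∉ HM C := fun h => h.1 rfl

variable (C) in
/-- The points different from the vertex. -/
abbrev UPt : Type := {φ : C.Pt // GCone.NV φ}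

/-- The exponent data at a point of a graded cone. -/
noncomputable def gdat (h4 : A4Stat) (x : UPt C) : Dat (HM C) :=
  dat (m := n + 1) h4 LOCE.a5Stat zero_notMem_HM (nonempty_chart x.2)

variable (C) in
/-- The exponent set at a point of a graded cone. -/
def gP (x : UPt C) : Set (HM C →₀ ℝ) := ES (n + 1) (fun f : HM C => (f : C.R)) x.1

theorem gdat_P (h4 : A4Stat) (x : UPt C) : (gdat h4 x).P = gP C x := rfl

theorem gdat_Sum (h4 : A4Stat) (x : UPt C) (f g s : HM C) (h : SumRel f g s) :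
    (gdat h4 x).Sum f g s := h

theorem algebraMap_mem_zero (c : ℂ) : algebraMap ℂ C.R c ∈ C.A 0 := by
  rw [Algebra.algebraMap_eq_smul_one]
  exact (C.A 0).smul_mem c SetLike.GradedOne.one_mem

theorem hm_algebraMap (c : ℂ) : Exp.HmOf (HM C) (algebraMap ℂ C.R c) := by
  by_cases hc : c = 0
  · right
    rw [hc, map_zero]
  · left
    refine ⟨?_, 0, algebraMap_mem_zero c⟩
    intro h
    apply hc
    have hinj : Function.Injective (algebraMap ℂ C.R) := (algebraMap ℂ C.R).injective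
    exact hinj (by rw [h, map_zero])

theorem isExp (h4 : A4Stat) (x : UPt C) :
    Exp.IsExp (Exp.HmOf (HM C)) (Exp.extP (HM C) (gP C x)) :=
  Exp.isExp_ofDat zero_notMem_HM (gdat h4 x) fun _ _ _ h => h

theorem isUnitAt (x : UPt C) {f : C.R} (hf : Exp.HmOf (HM C) f) (h : x.1 f ≠ 0) :
    Exp.IsUnitAt (Exp.extP (HM C) (gP C x)) f := by
  intro k K hk
  have hf' : f ∈ HM C := hf.resolve_right fun h0 => h (by rw [h0, map_zero])
  rw [Exp.mem_extP_iff] at hk ⊢
  obtain ⟨k', h1, rfl⟩ := hk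
  refine ⟨k' + single (⟨f, hf'⟩ : HM C) K, ?_, ?_⟩
  · exact ES_unit (m := n + 1) zero_notMem_HM (nonempty_chart x.2) (f := (⟨f, hf'⟩ : HM C)) h h1 K
  · rw [Finsupp.mapDomain_add, Finsupp.mapDomain_single]

theorem nonint (x : UPt C) {f : C.R} {κ : ℝ} (hf : Exp.HmOf (HM C) f) (h : x.1 f = 0)
    (hκ : single f κ ∈ Exp.extP (HM C) (gP C x)) : κ < 1 := by
  rcases hf with hf | rfl
  · have h1 : single f κ = (single (⟨f, hf⟩ : HM C) κ).mapDomain (fun h : HM C => (h : C.R)) := by
      rw [Finsupp.mapDomain_single]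
    rw [h1, Exp.mapDomain_mem_extP] at hκ
    exact ES_nonint (m := n + 1) LOCE.a7Stat zero_notMem_HM (nonempty_chart x.2)
      (f := (⟨f, hf⟩ : HM C)) h hκ
  · by_contra hlt
    have h2 : (0 : C.R) ∈ (single (0 : C.R) κ).support := by
      rw [Finsupp.mem_support_iff, single_eq_same]
      intro h0
      rw [h0] at hlt
      exact hlt one_pos
    exact (hκ.1 0 h2).1 rfl

end cone

end Vale.Agent.P271.Inst
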