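import Vale.Agent.P271.Inst.Main
import Vale.Agent.P271.Main.CSys

/-!
# P271, block INST: the structure `CSys` of the assembly (see `Main.csys`)
-/

namespace Vale.Agent.P271.Inst

open Vale.Agent.P271.Main Sch

variable {n : ℕ}

theorem csys_E (C : GCone n) : (csys C).E = sys C := rfl

theorem csys_D (C : GCone n) (x : UPt C) : (csys C).D x = gD C x := rfl

end Vale.Agent.P271.Inst
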