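import Vale.Agent.P271.Inst.Sys
import Vale.Agent.P271.LOC.A4

/-!
# P271, block INST, final form: the exponent data and the system of exponent sets of a graded cone
-/

namespace Vale.Agent.P271.Inst

open Filter Topology Metric Set MeasureTheory Vale.Agent.P271.H741 Vale.Agent.P271.Zorn Finsupp Sch
open scoped ENNReal

variable {n : ℕ}

/-- The exponent data at a point of a graded cone, different from the vertex. -/
noncomputable def gD (C : GCone n) (x : UPt C) : Dat (HM C) := gdat LOC.a4Stat x

theorem gD_P {C : GCone n} (x : UPt C) :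
    (gD C x).P = ES (n + 1) (fun f : HM C => (f : C.R)) x.1 := rfl

theorem gD_Sum {C : GCone n} (x : UPt C) (f g s : HM C) : (gD C x).Sum f g s ↔ SumRel f g s :=
  Iff.rfl

/-- The exponent sets at the points of a graded cone. -/
noncomputable def sys (C : GCone n) : Exp.ExpSys C.R (Exp.HmOf (HM C)) (UPt C) :=
  sysOf C LOC.a4Stat

theorem sys_ev {C : GCone n} (x : UPt C) : (sys C).ev x = x.1 := rfl

theorem sys_P {C : GCone n} (x : UPt C) : (sys C).P x = Exp.extP (HM C) (gD C x).P := rfl

end Vale.Agent.P271.Inst
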